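import Vale.Agent.P251EJ.Defs

/-!
# P251EJ, row IDEM: the idempotent with `e_* = η ∘ ε` and its image
-/

open CategoryTheory MonoidalCategory MonObj Limits Pretriangulated

set_option linter.unusedSectionVars false

universe u

noncomputable section

namespace Vale.Agent.P251EJ92

open Vale.Agent.P251 Vale.Agent.P251.S Vale.Agent.P251.T Vale.Agent.P251.M Vale.Agent.P251.F
  Vale.Agent.P251.I EvenSpheres Vale.Agent.P257.H80 Vale.Agent.P221.H246 Vale.Agent.P221.T
  Vale.Agent.P221.T.H520 Vale.Agent.P221X.EXI Vale.Agent.P251EJ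

variable {𝒯 : Type u} [Category.{0} 𝒯] [Preadditive 𝒯] [HasZeroObject 𝒯]
    [HasShift 𝒯 ℤ] [∀ n : ℤ, (shiftFunctor 𝒯 n).Additive] [Pretriangulated 𝒯] [IsTriangulated 𝒯]
    [MonoidalCategory 𝒯] [SymmetricCategory 𝒯] [TensorTriangulated 𝒯] [MonoidalClosed 𝒯]
    [HasCoproducts.{0} 𝒯] [HasProducts.{0} 𝒯] [StableCat 𝒯]
    {D : MUData 𝒯} {p : ℕ} [hp : Fact p.Prime]

omit hp in
/-- a monoid under a `p`-local monoid is `p`-local -/
theorem locO_of_hom {B G : 𝒯} [MonObj B] [MonObj G] (hB : LocO p B) (f : B ⟶ G) [IsMonHom f] :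
    LocO p G := by
  refine (LocO.tensor hB G).retract ((λ_ G).inv ≫ η[B] ▷ G) (f ▷ G ≫ μ[G]) ?_
  rw [Category.assoc, ← comp_whiskerRight_assoc, IsMonHom.one_hom, MonObj.one_mul,
    Iso.inv_hom_id]

/-- the inverse of a typical series with homogeneous parameters has homogeneous coefficients -/
theorem isHomog_inv {K : 𝒯} [MonObj K] [IsCommMonObj K] (hK : PLoc p (HRing (stdEven 𝒯) K))
    (u : D.R ⟶ K) [IsMonHom u] {g : InvSeries (HRing (stdEven 𝒯) K)} (hg : g ∈ strict _)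
    (hh : IsHaz p (g⁻¹ • lawOf u))
    (hc : ∀ k, IsHomog K ((p ^ (k + 1) - 1 : ℕ) : ℤ) (g.c (p ^ (k + 1) - 1))) (n : ℕ) :
    IsHomog K (n : ℤ) ((g⁻¹).c n) := by
  set L := LaurentPolynomial (HRing (stdEven 𝒯) K) with hLdef
  set cc : HRing (stdEven 𝒯) K →+* L := LaurentPolynomial.C with hcc
  set t : Lˣ := unitT (HRing (stdEven 𝒯) K) with ht
  have hL : PLoc p L := hK.map cc
  have hT : ∀ m : ℕ, (t : L) ^ m = LaurentPolynomial.T (m : ℤ) := fun m => by
    rw [← unitT_zpow, zpow_natCast, Units.val_pow_eq_pow_val]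
  obtain ⟨φ, hφ⟩ := hh
  have h1 : IsHaz p ((InvSeries.map (coactH K) g)⁻¹ • (lawOf u).map (coactH K)) := by
    rw [← map_inv, ← InvSeries.map_smul]
    exact IsHaz.map ⟨φ, hφ⟩ _
  set g' : InvSeries L := (InvSeries.lin t)⁻¹ * InvSeries.map cc g * InvSeries.lin t with hg'
  have h2 : IsHaz p (g'⁻¹ • (lawOf u).map (coactH K)) := by
    refine ⟨MvPolynomial.eval₂Hom (Int.castRingHom L) fun k =>
      (t : L) ^ (p ^ (k + 1) - 1) * cc (φ (MvPolynomial.X k)), ?_⟩
    rw [P257.H80.haz_lin p t (φ := cc.comp φ) fun k => by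
      rw [MvPolynomial.eval₂Hom_X', RingHom.comp_apply]]
    have h6 : (InvSeries.map cc g)⁻¹ • (lawOf u).map cc = (haz p).map (cc.comp φ) := by
      rw [← map_inv, ← InvSeries.map_smul, hφ, Law.map_map]
    rw [lawOf_coact, hg', mul_inv_rev, mul_inv_rev, inv_inv, mul_smul, mul_smul, smul_inv_smul,
      ← h6]
  have hg's : g' ∈ strict L := by
    rw [mem_strict, hg', P257.H80.c_conj_lin, pow_zero, _root_.one_mul, InvSeries.c_map,
      mem_strict.1 hg, map_one]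
  have h3 : InvSeries.map (coactH K) g = g' := by
    refine eq_of_typical p hL (map_mem_strict _ hg) hg's h1 h2 fun k => ?_
    rw [hg', P257.H80.c_conj_lin, InvSeries.c_map, InvSeries.c_map, isHomog_iff.1 (hc k), hT,
      mul_comm]
  have h4 : InvSeries.map (coactH K) g⁻¹ =
      (InvSeries.lin t)⁻¹ * InvSeries.map cc g⁻¹ * InvSeries.lin t := by
    rw [map_inv, h3, hg', mul_inv_rev, mul_inv_rev, inv_inv, map_inv, _root_.mul_assoc]
  have h5 := congrArg (fun f : InvSeries L => f.c n) h4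
  rw [P257.H80.c_conj_lin, InvSeries.c_map, InvSeries.c_map, hT, mul_comm] at h5
  exact isHomog_iff.2 h5

theorem etaZ_X (i : ℕ) : etaZ p (MvPolynomial.X i) = eta0 p i := by
  rw [etaZ, MvPolynomial.eval₂Hom_X']

/-- the typical series over `G0 p` -/
theorem exists_g : ∃ g ∈ strict (G0 p), (∀ k, g.c (p ^ (k + 1) - 1) = MvPolynomial.X k) ∧
    g⁻¹ • (haz p).map (B := G0 p) (φ0 p) = (haz p).map (B := G0 p) (etaZ p) := by
  obtain ⟨g, hg, hc, ψ, hψ, h⟩ := eta0_spec p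
  have h1 : ψ = etaZ p := by
    apply MvPolynomial.ringHom_ext
    · intro r
      simp
    · intro i
      rw [hψ, etaZ_X]
  exact ⟨g, hg, hc, h1 ▸ h⟩

/-- a ring map that kills the `t_k` sends the typical series to the identity -/
theorem map_g_eq_one {R : Type} [CommRing R] (hR : PLoc p R) (θ : G0 p →+* R)
    (hθ : ∀ k, θ (MvPolynomial.X k) = 0) {g : InvSeries (G0 p)} (hg : g ∈ strict _)
    (hc : ∀ k, g.c (p ^ (k + 1) - 1) = MvPolynomial.X k)
    (h : g⁻¹ • (haz p).map (B := G0 p) (φ0 p) = (haz p).map (B := G0 p) (etaZ p)) :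
    InvSeries.map θ g = 1 := by
  refine eq_of_typical p hR (F := (haz p).map (θ.comp (φ0 p))) (map_mem_strict θ hg)
    (Subgroup.one_mem _) ⟨_, map_typical p θ h⟩ ⟨_, by rw [inv_one, one_smul]⟩ fun k => ?_
  have h1 : p ^ (k + 1) - 1 = (p ^ (k + 1) - 2) + 1 := by
    have := two_le_pow (k := k + 1) hp.out (Nat.succ_ne_zero k)
    omega
  rw [InvSeries.c_map, hc, hθ, h1, InvSeries.c_one_succ]

theorem two_wz (k : ℕ) : sV p (k + 1) = 2 * ((p ^ (k + 1) - 1 : ℕ) : ℤ) := H520.sV_eq k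

variable (𝒯) in
/-- **row IDEM** -/
theorem idemG : IdemG 𝒯 := by
  intro F e D p _ n B _ _ b _ hb Φ X lam Z hD hΦ hbij hlam
  have hG : LocO p Z.G := locO_of_hom hb.loc Z.inc
  have hπ : PLoc p (HRing (stdEven 𝒯) Z.G) := pLoc_of_locO hG
  obtain ⟨g, hg, hc, hgψ⟩ := exists_g (p := p)
  set θ : G0 p →+* HRing (stdEven 𝒯) Z.G := Z.Ψ.comp X.q with hθ
  have hθh : ∀ (d : ℤ) (x : G0 p), HG p (2 * d) x → IsHomog Z.G d (θ x) := fun d x hx =>
    Z.Ψ_mem d _ (X.q_mem d x hx)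
  -- the law of `b ≫ inc`
  have h0 : lawOf (b ≫ Z.inc) = (haz p).map (θ.comp (φ0 p)) := by
    rw [lawOf_comp, hΦ, Law.map_map]
    congr 1
    apply MvPolynomial.ringHom_ext
    · intro r
      simp
    · intro i
      rw [RingHom.comp_apply, RingHom.comp_apply, φ0_X, hθ, RingHom.comp_apply, ← hlam, Z.Ψ_lam,
        PhiT_X]
  have h1 : (InvSeries.map θ g)⁻¹ • lawOf (b ≫ Z.inc) = (haz p).map (θ.comp (etaZ p)) := by
    rw [h0]
    exact map_typical p θ hgψ
  have hgs : InvSeries.map θ g ∈ strict _ := map_mem_strict θ hg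
  obtain ⟨u1, i1, hu1⟩ := exists_of_ser hD (b ≫ Z.inc)
    (fun m => ((InvSeries.map θ g)⁻¹).c (m + 1)) fun m =>
      isHomog_inv hπ (b ≫ Z.inc) hgs ⟨_, h1⟩ (fun k => by
        rw [InvSeries.c_map, hc]
        refine hθh _ _ ?_
        rw [← two_wz]
        exact HG.X k) (m + 1)
  rw [P251.F.strictMk_c (Subgroup.inv_mem _ hgs)] at hu1
  have h2 : lawOf u1 = (haz p).map (θ.comp (etaZ p)) := by
    rw [← ser_smul (b ≫ Z.inc) u1, hu1, h1]
  obtain ⟨r, i2, hr⟩ := hb.exists_map Z.G hG u1 _ h2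
  have h3 : (HRing.map (E := stdEven 𝒯) r).comp Φ = θ.comp (etaZ p) := by
    refine haz_map_injective p hπ ?_
    rw [← h2, ← Law.map_map, ← hΦ, ← lawOf_comp]
    exact lawOf_congr hr
  have h4 : ∀ c, (Z.Ψ.comp X.τ) (lam c) = HRing.map (E := stdEven 𝒯) r c := by
    intro c
    obtain ⟨c, rfl⟩ := hbij.2 c
    have h5 : ((Z.Ψ.comp X.τ).comp X.q).comp MvPolynomial.C =
        (HRing.map (E := stdEven 𝒯) r).comp (PhiT (P221X.EXI.ell hb) Φ) := by
      apply MvPolynomial.ringHom_ext'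
      · exact Z0.hom_ext _ _
      · intro i
        have h6 := congrArg (fun f => f (MvPolynomial.X i)) h3
        simp only [RingHom.comp_apply, etaZ_X, hθ] at h6
        simp only [RingHom.comp_apply, X.τ_C, PhiT_X, h6]
    rw [hlam]
    exact congrArg (fun f => f c) h5
  obtain ⟨ε, i3, hε, hεΨ⟩ := Z.univ r (Z.Ψ.comp X.τ)
    (fun d a ha => Z.Ψ_mem d _ (X.τ_mem d a ha)) h4
  have hεΨ' : ∀ a, HRing.map (E := stdEven 𝒯) ε (Z.Ψ a) = Z.Ψ (X.τ a) := hεΨ
  -- `ε` is idempotent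
  have h7 : (b ≫ Z.inc) ≫ ε = u1 := by rw [Category.assoc, hε, hr]
  have h8 : u1 ≫ ε = u1 := by
    apply eq_of_ser hD (u := (b ≫ Z.inc) ≫ ε)
    have h9 : InvSeries.map (HRing.map (E := stdEven 𝒯) ε) (InvSeries.map θ g) = 1 := by
      have h10 := map_g_eq_one hπ ((HRing.map (E := stdEven 𝒯) ε).comp θ) (fun k => by
        rw [RingHom.comp_apply, hθ, RingHom.comp_apply, hεΨ', X.τ_X, map_zero]) hg hc hgψ
      rw [InvSeries.map_map, h10]
    have h11 : ∀ (w : D.R ⟶ Z.G) [IsMonHom w], w = u1 → ser w u1 = 1 := by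
      intro w _ hw
      subst hw
      exact ser_self _
    rw [ser_comp, hu1, map_inv, h9, inv_one, h11 _ h7]
  have h12 : r ≫ ε = r := by
    apply hb.uniq Z.G hG
    rw [← Category.assoc, hr, h8]
  have hidem : ε ≫ ε = ε := by
    refine Z.uniq _ _ (by rw [← Category.assoc, hε, h12]) fun y => ?_
    obtain ⟨a, rfl⟩ := Z.bij.2 y
    rw [HRing.map_comp, RingHom.comp_apply, hεΨ', hεΨ', X.τ_τ]
  obtain ⟨E, s, ρ, hsr, hrs⟩ := P251.X.exists_split ε hidem
  have hret : P251.X.IsRetMon s ρ := ⟨hsr, by rw [hrs]; exact i3⟩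
  let j1 : MonObj E := hret.monObj
  have j2 : IsCommMonObj E := hret.isCommMonObj
  have j3 : IsMonHom s := hret.isMonHom_s
  have j4 : IsMonHom ρ := hret.isMonHom_r
  have hsρ : ∀ y, HRing.map (E := stdEven 𝒯) ρ (HRing.map (E := stdEven 𝒯) s y) = y := by
    intro y
    rw [← RingHom.comp_apply, ← HRing.map_comp, HRing_map_congr' hsr, HRing.map_id]
    rfl
  have hρs : ∀ y, HRing.map (E := stdEven 𝒯) s (HRing.map (E := stdEven 𝒯) ρ y) =
      HRing.map (E := stdEven 𝒯) ε y := by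
    intro y
    rw [← RingHom.comp_apply, ← HRing.map_comp, HRing_map_congr' hrs]
  have hτ : ∀ x, X.τ (X.q (etaZ p x)) = X.q (etaZ p x) := by
    intro x
    have h13 : (X.τ.comp X.q).comp (etaZ p) = X.q.comp (etaZ p) := by
      apply MvPolynomial.ringHom_ext
      · intro r
        simp
      · intro i
        simp only [RingHom.comp_apply, etaZ_X]
        rw [← X.τ_C, X.τ_τ]
    exact congrArg (fun f => f x) h13
  refine ⟨E, j1, j2, u1 ≫ ρ, inferInstance,
    (HRing.map (E := stdEven 𝒯) ρ).comp (θ.comp (etaZ p)), hG.retract s ρ hsr, ?_,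
    Z.odd.retract s ρ hsr, ?_, ?_, ?_⟩
  · rw [lawOf_comp, h2, Law.map_map]
  · simp only [RingHom.comp_apply, etaZ_X, hθ]
    exact (X.unit.map Z.Ψ).map _
  · intro y
    obtain ⟨a, ha⟩ := Z.bij.2 (HRing.map (E := stdEven 𝒯) s y)
    obtain ⟨m, j, x, hm, hx⟩ := X.gen a
    refine ⟨m, j, x, hm, ?_⟩
    have h14 : HRing.map (E := stdEven 𝒯) ρ (Z.Ψ (X.τ a)) = y := by
      rw [← hεΨ', ha, ← hρs, hsρ, hsρ]
    have h15 := congrArg (fun z => HRing.map (E := stdEven 𝒯) ρ (Z.Ψ z)) hx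
    simp only [map_mul, map_pow, map_intCast, h14] at h15
    simp only [RingHom.comp_apply, etaZ_X, hθ]
    exact h15
  · intro x
    rw [← X.ker x]
    simp only [RingHom.comp_apply, hθ]
    constructor
    · intro h
      have h16 := congrArg (HRing.map (E := stdEven 𝒯) s) h
      rw [hρs, hεΨ', hτ, map_zero] at h16
      exact Z.bij.1 (h16.trans (map_zero _).symm)
    · intro h
      rw [h, map_zero, map_zero]

end Vale.Agent.P251EJ92
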