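import Vale.Agent.P251EJ92.Plug0
import Vale.Agent.P251EJ28.HS1
import Vale.Agent.P251EJ81.Mul

/-!
# P251EJ: existence of the Johnson-Wilson spectra
-/

namespace Vale.Agent.P251EJ92

open Vale.Agent.P251.St

theorem exists_jw (p : ℕ) [Fact p.Prime] (n : ℕ) (T : SHCat) (S : Susp T) :
    ∃ (E : P251CY.RingSp T) (o : P251CY.Oriented S E) (φ : P251CY.GHom S p E),
      P251CY.IsJW p (n + 1) o φ :=
  exists_jw_of_hs (fun T => P251EJ80.hs_of (P251EJ28.hs1 T.C) (P251EJ81.hs2 T.C)) p n T S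

end Vale.Agent.P251EJ92
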