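import Vale.Agent.P251EJ.PlugS
import Vale.Agent.P251EJ19.PlugA
import Vale.Agent.P251EJ70.Asm
import Vale.Agent.P251EJ32.Out
import Vale.Agent.P251EJ18.Tra
import Vale.Agent.P251EJ78.OddB
import Vale.Agent.P251EJ78.ModP
import Vale.Agent.P251EJ13.RatMU
import Vale.Agent.P251EJ92.Idem
import Vale.Agent.P251CY.BrJW

/-!
# P251EJ: the assembly, from the realization theorem `HS`
-/

open CategoryTheory

namespace Vale.Agent.P251EJ92

open Vale.Agent.P251.St Vale.Agent.P251EJ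

theorem evenB (T : SHCat) : EvenB T.C := fun _ _ _ _ _ _ _ _ _ _ hb _ hS hD hA hΦ =>
  P251EJ78.bij_of_ratMU hD hA hb hΦ (P251EJ13.ratMU hS hD)

theorem goal_of_hs (hs : ∀ T : SHCat, HS T.C) (p : ℕ) [Fact p.Prime] (n : ℕ) : Goal p (n + 1) :=
  P251EJ70.asmM p n (fun _ S => serre S.toSpaceFunctor) (fun T => P251EJ78.oddB T.C) evenB hs
    (fun T => P251EJ18.traG T.C) (fun T => idemG T.C) P251EJ32.outJW (P251EJ19.blockA p n)

theorem exists_jw_of_hs (hs : ∀ T : SHCat, HS T.C) (p : ℕ) [Fact p.Prime] (n : ℕ) (T : SHCat)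
    (S : Susp T) : ∃ (E : P251CY.RingSp T) (o : P251CY.Oriented S E) (φ : P251CY.GHom S p E),
      P251CY.IsJW p (n + 1) o φ := by
  obtain ⟨E, o, φ, h⟩ := goal_of_hs hs p n T S
  exact ⟨P251CY.RingSp.ofOld E, P251CY.Oriented.ofOld o, P251CY.GHom.ofOld φ,
    (P251CY.isJW_iff _ _ _ _).2 h⟩

end Vale.Agent.P251EJ92
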